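import Vale.Agent.P319.S2.H510.Main
import Vale.Agent.P319.S2.H681.PrStep

/-! P319, block S2: CORE, without hypotheses. -/

namespace Vale.Agent.P319.S2

/-- **CORE** -/
theorem core : CoreStmt := C510.core_of H681.prStep

end Vale.Agent.P319.S2
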