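import Vale.Agent.P319.SC.H323.Block
import Vale.Agent.P319.SC.H323.Tri

/-! P319, block S2: the exponent `1/2`. Interface. -/

namespace Vale.Agent.P319.S2

open Finset Vale.Agent.P319.SC Vale.Agent.P319.SC.H323

set_option linter.all false

variable {V ι : Type} [Fintype V] [DecidableEq V] [DecidableEq ι] {m : ℕ}

/-- the ground data of the iteration -/
structure TG (𝒞 : Cfg V ι (m + 2)) (R T : ι) (lab : ι → ZMod 3) (ρ₀ : ι) (D L₀ M : ℕ) :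
    Prop where
  hm : 4 ≤ m
  hMm : M ≤ m
  big : ∀ k, M ≤ k → ∀ 𝒟 : Cfg V ι k, BigRank 𝒟 D
  hR : R ∈ 𝒞.rels ρ₀ ρ₀
  hT : T ∈ 𝒞.rels ρ₀ ρ₀
  hlab : IsLab 𝒞 R lab
  uR : UnspR 𝒞 R T
  uL : UnspL 𝒞 R T
  vR : ∀ v, 𝒞.c1 v = ρ₀ → (𝒞.cls ρ₀).card ≤ L₀ * 𝒞.val v R
  vT : ∀ v, 𝒞.c1 v = ρ₀ → (𝒞.cls ρ₀).card ≤ L₀ * 𝒞.val v T

/-- **block CORE**: if the ranks of all configurations over at most `J + 2` points are at most `Q`,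
then `2 ^ J ≤ 16 Q`. -/
def CoreStmt : Prop := ∀ (V ι : Type) [Fintype V] [DecidableEq V] [DecidableEq ι]
  (M J w Q L₀ D : ℕ) (𝒞 : Cfg V ι (M + J + 2)) (ρ₀ R T : ι) (lab : ι → ZMod 3),
  TG (m := M + J) 𝒞 R T lab ρ₀ D L₀ M → 5 ≤ M → 10 ≤ w → J + 1 ≤ w → 1 ≤ Q → Q ≤ 2 ^ w →
  1 ≤ L₀ → L₀ ≤ 2 ^ w → 2 ^ (1000 * w) ≤ D → (𝒞.cls ρ₀).Nonempty →
  RB (𝒞.cls ρ₀) Q M (J + 2) 𝒞 → 2 ^ J ≤ 16 * Q

/-- **TARGET of the combinatorial part**: `m ^ 2 ≤ C log n` -/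
def Main12Stmt : Prop := ∃ C : ℕ, ∀ (V ι : Type) [Fintype V] [DecidableEq V] [DecidableEq ι]
  (m : ℕ) (𝒞 : Cfg V ι m), 2 ≤ Fintype.card V → (∀ a b : V, 𝒞.c1 a = 𝒞.c1 b) →
    m ^ 2 ≤ C * Nat.log 2 (Fintype.card V)

end Vale.Agent.P319.S2
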