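import Vale.Agent.P319.SC.H232.Mach
import Vale.Agent.P319.S2.Iface

/-! P319, block S2: the machine with the exponent `1/2`. -/

set_option linter.all false

namespace Vale.Agent.P319.S2

open Vale.Agent.P319.SC Vale.Agent.P319.SC.H232

theorem machE12 (h : Main12Stmt) :
    ∃ C₀ : ℕ, ∀ (nr : ℕ → ℕ → ℕ → List (List ℕ)) [NrOK nr], MachE (eab 1 2) C₀ nr := by
  obtain ⟨C, hC⟩ := h
  refine ⟨2 * (C + 12), fun nr _ => machE (bad := badab C 1 2) ?_ (arith_ab C (by norm_num)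
    (by norm_num)) nr⟩
  intro V ι _ _ _ m 𝒞 h1 h2 hbad
  refine absurd (hC V ι m 𝒞 h1 h2) (not_le.2 ?_)
  unfold badab at hbad
  rwa [pow_one] at hbad

end Vale.Agent.P319.S2
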