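import Vale.Agent.P319.S2.Main12Core
import Vale.Agent.P319.S2.CoreThm

/-! P319, block S2: the combinatorial theorem. -/

namespace Vale.Agent.P319.S2

/-- **a homogeneous configuration with `m` levels on `n ≥ 2` points has `m ^ 2 ≤ C log n`** -/
theorem main12 : Main12Stmt := main12_core core

end Vale.Agent.P319.S2
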