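import Vale.Agent.P319.S2.Main12Pre
import Vale.Agent.P319.S2.H767.Meet
import Vale.Agent.P319.S2.H82.Thin
import Vale.Agent.P319.S2.H235.Step

/-! P319, block S2: `m ^ 2 ≤ C log n` from CORE. -/

namespace Vale.Agent.P319.S2

open Vale.Agent.P319.SC

set_option linter.all false

/-- everything except CORE -/
theorem main12_core (hCore : CoreStmt) : Main12Stmt :=
  main12_pre hCore (H235S.step H767.lowStmt H82.thin H767.meetStmt)

end Vale.Agent.P319.S2
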