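import Vale.Agent.P319.S2.H920.MainB
import Vale.Agent.P319.S2.H767.Low
import Vale.Agent.P319.S2.H767.Iter
import Vale.Agent.P319.S2.H257.Block
import Vale.Agent.P319.S2.H82.UpMix
import Vale.Agent.P319.S2.H323.Ph
import Vale.Agent.P319.H676.Deg
import Vale.Agent.P319.H916.Main

/-! P319, block S2: `m ^ 2 ≤ C log n` from CORE and STEP. -/

namespace Vale.Agent.P319.S2

open Vale.Agent.P319.SC

set_option linter.all false

theorem deg12 : DegStmt := Vale.Agent.P319.H676.deg_of_dbl Vale.Agent.P319.H916.dbl

/-- everything except CORE and STEP -/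
theorem main12_pre (hCore : CoreStmt) (hStep : H920.StepStmt) : Main12Stmt :=
  H920.main12_of H767.powStmt (H767.iterStmt_of hStep) (H257.blockStmt H82.upMix)
    (PH.phaseStmt hCore deg12) deg12

end Vale.Agent.P319.S2
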